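import Vale.Agent.P265.H117.CritDer
import Vale.Agent.P265.Dis.Model

/-!
# The zeros of the limit system: at most 16, nondegenerate

`Pq w = c z₁ + c z₂ j`, `DPq w ξ` its derivative, `g₀ = 1 + j`.
`th w v ξ = ⟨conj P · DP(ξ), conj g₀ · v · g₀⟩`.

A *zero* is a point `x = (w, v)` with `G x = 0`, `(P conj g₀) v = v (P conj g₀)` and
`th w v ξ = 0` for all `ξ` tangent to `W` at `w`.
-/

open scoped Quaternion ContDiff ComplexConjugate
open Complex

namespace Vale.Agent.P265.Dis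

/-- The quaternion `z₁ + z₂ j`. -/
def qcH (z1 z2 : ℂ) : ℍ[ℝ] := ⟨z1.re, z1.im, z2.re, z2.im⟩

@[simp] theorem qcH_re (z1 z2 : ℂ) : (qcH z1 z2).re = z1.re := rfl
@[simp] theorem qcH_imI (z1 z2 : ℂ) : (qcH z1 z2).imI = z1.im := rfl
@[simp] theorem qcH_imJ (z1 z2 : ℂ) : (qcH z1 z2).imJ = z2.re := rfl
@[simp] theorem qcH_imK (z1 z2 : ℂ) : (qcH z1 z2).imK = z2.im := rfl

/-- The quaternion `P(w) = c z₁ + c z₂ j`. -/
def Pq (w : A) : ℍ[ℝ] := qcH (w.1 * w.2.1) (w.1 * w.2.2.1)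

/-- The derivative of `P`. -/
def DPq (w ξ : A) : ℍ[ℝ] :=
  qcH (ξ.1 * w.2.1 + w.1 * ξ.2.1) (ξ.1 * w.2.2.1 + w.1 * ξ.2.2.1)

/-- The quaternion `1 + j`. -/
def g0 : ℍ[ℝ] := ⟨1, 0, 1, 0⟩

@[simp] theorem g0_re : g0.re = 1 := rfl
@[simp] theorem g0_imI : g0.imI = 0 := rfl
@[simp] theorem g0_imJ : g0.imJ = 1 := rfl
@[simp] theorem g0_imK : g0.imK = 0 := rfl

/-- The covector of the limit system. -/
noncomputable def th (w : A) (v : ℍ[ℝ]) (ξ : A) : ℝ :=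
  inner ℝ (star (Pq w) * DPq w ξ) (star g0 * v * g0)

theorem th_eq (w : A) (v : ℍ[ℝ]) (hv : v.re = 0) (ξ : A) :
    th w v ξ = 2 * Crit.hf (w.1 * w.2.1) (w.1 * w.2.2.1) (ξ.1 * w.2.1 + w.1 * ξ.2.1)
      (ξ.1 * w.2.2.1 + w.1 * ξ.2.2.1) (-v.imK) v.imJ v.imI := by
  rw [th, Crit.hf_eq, Quaternion.inner_def, Pq, DPq]
  generalize w.1 * w.2.1 = p
  generalize w.1 * w.2.2.1 = q
  generalize (ξ.1 * w.2.1 + w.1 * ξ.2.1) = P
  generalize (ξ.1 * w.2.2.1 + w.1 * ξ.2.2.1) = Q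
  simp only [Quaternion.re_mul, Quaternion.imI_mul, Quaternion.imJ_mul, Quaternion.imK_mul, hv,
    Quaternion.re_star, Quaternion.imI_star, Quaternion.imJ_star, Quaternion.imK_star,
    qcH_re, qcH_imI, qcH_imJ, qcH_imK, g0_re, g0_imI, g0_imJ, g0_imK]
  ring

/-- The commutator. -/
noncomputable def cm (w : A) (v : ℍ[ℝ]) : ℍ[ℝ] := Pq w * star g0 * v - v * (Pq w * star g0)

theorem cm_eq (w : A) (v : ℍ[ℝ]) : cm w v =
    ⟨0, 2 * ((((w.1 * w.2.1).im - (w.1 * w.2.2.1).im) * v.imJ -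
        ((w.1 * w.2.2.1).re - (w.1 * w.2.1).re) * -v.imK)),
      2 * ((((w.1 * w.2.2.1).im + (w.1 * w.2.1).im) * -v.imK -
        ((w.1 * w.2.1).im - (w.1 * w.2.2.1).im) * v.imI)),
      -2 * ((((w.1 * w.2.2.1).re - (w.1 * w.2.1).re) * v.imI -
        ((w.1 * w.2.2.1).im + (w.1 * w.2.1).im) * v.imJ))⟩ := by
  rw [cm, Pq]
  generalize w.1 * w.2.1 = p
  generalize w.1 * w.2.2.1 = q
  ext <;> simp only [Quaternion.re_sub, Quaternion.imI_sub, Quaternion.imJ_sub,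
    Quaternion.imK_sub, Quaternion.re_mul, Quaternion.imI_mul, Quaternion.imJ_mul,
    Quaternion.imK_mul, Quaternion.re_star, Quaternion.imI_star, Quaternion.imJ_star,
    Quaternion.imK_star, qcH_re, qcH_imI, qcH_imJ, qcH_imK, g0_re, g0_imI, g0_imJ, g0_imK] <;>
    ring


theorem cm_imI (w : A) (v : ℍ[ℝ]) : (cm w v).imI =
    2 * (((w.1 * w.2.1).im - (w.1 * w.2.2.1).im) * v.imJ -
      ((w.1 * w.2.2.1).re - (w.1 * w.2.1).re) * -v.imK) := by
  rw [cm_eq]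

theorem cm_imK (w : A) (v : ℍ[ℝ]) : (cm w v).imK =
    -2 * (((w.1 * w.2.2.1).re - (w.1 * w.2.1).re) * v.imI -
      ((w.1 * w.2.2.1).im + (w.1 * w.2.1).im) * v.imJ) := by
  rw [cm_eq]

/-- The multiplier `m / 12`. -/
noncomputable def mu0 (w : A) : ℂ := conj (w.2.1 ^ 2 - w.2.2.1 ^ 3) * w.2.1 * w.2.2.1 ^ 2

/-- Four vector fields tangent to all level sets. -/
noncomputable def bU (w : A) : A := (I * w.1, 0, 0, 0)

/-- The circle action. -/
noncomputable def bR (w : A) : A := (0, 3 * I * w.2.1, 2 * I * w.2.2.1, 0)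

/-- The field along the fibres, `μ = i conj m`. -/
noncomputable def b3 (w : A) : A :=
  (0, 3 * w.2.2.1 ^ 2 * (I * conj (mu0 w)), -(2 * w.2.1 * (I * conj (mu0 w))), 0)

/-- The field along the fibres, `μ = s`. -/
noncomputable def b4 (w : A) : A :=
  (0, 3 * w.2.2.1 ^ 2 * w.2.2.2, -(2 * w.2.1 * w.2.2.2), -(12 * (mu0 w).re))

theorem fderiv_G_zero_iff (w : A) (v : ℍ[ℝ]) (ξ : A) : fderiv ℝ G (w, v) (ξ, 0) = 0 ↔
    (conj w.1 * ξ.1).re = 0 ∧ Crit.Tan w.2.1 w.2.2.1 w.2.2.2 ξ.2.1 ξ.2.2.1 ξ.2.2.2 := by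
  have e : ∀ a b : ℂ, inner ℝ a b = (conj a * b).re := fun a b => by
    rw [Complex.inner, mul_comm]
  rw [fderiv_G]
  simp only [e, Prod.mk_eq_zero, inner_zero_right]
  change _ ↔ (conj w.1 * ξ.1).re = 0 ∧ (conj (fW w) * dfW w ξ).re = 0 ∧
    (conj (dW w) * ddW w ξ).re + w.2.2.2 * ξ.2.2.2 = 0
  generalize (conj w.1 * ξ.1).re = r1
  generalize (conj (fW w) * dfW w ξ).re = r2
  generalize (conj (dW w) * ddW w ξ).re = r3
  constructor
  · rintro ⟨h1, h2, h3, -, -⟩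
    exact ⟨by linarith, by linarith, by linarith⟩
  · rintro ⟨h1, h2, h3⟩
    exact ⟨by linarith, by linarith, by linarith, by simp, by simp⟩

theorem tangent_bU (w : A) (v : ℍ[ℝ]) : fderiv ℝ G (w, v) (bU w, 0) = 0 := by
  rw [fderiv_G_zero_iff]
  refine ⟨?_, ?_⟩
  · simp [bU]; ring
  · constructor <;> simp [bU]

theorem tangent_bR (w : A) (v : ℍ[ℝ]) : fderiv ℝ G (w, v) (bR w, 0) = 0 := by
  rw [fderiv_G_zero_iff]
  exact ⟨by simp [bR], Crit.tan_R _ _ _⟩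

theorem tangent_b3 (w : A) (v : ℍ[ℝ]) : fderiv ℝ G (w, v) (b3 w, 0) = 0 := by
  rw [fderiv_G_zero_iff]
  refine ⟨by simp [b3], Crit.tan_mu _ _ _ _ _ ?_⟩
  have : conj (w.2.1 ^ 2 - w.2.2.1 ^ 3) * w.2.1 * w.2.2.1 ^ 2 * (I * conj (mu0 w)) =
      ((normSq (mu0 w) : ℝ) : ℂ) * I := by
    rw [normSq_eq_conj_mul_self, mu0]; ring
  rw [this, re_ofReal_mul]
  simp [b3]

theorem tangent_b4 (w : A) (v : ℍ[ℝ]) : fderiv ℝ G (w, v) (b4 w, 0) = 0 := by
  rw [fderiv_G_zero_iff]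
  refine ⟨by simp [b4], Crit.tan_mu _ _ _ _ _ ?_⟩
  have : conj (w.2.1 ^ 2 - w.2.2.1 ^ 3) * w.2.1 * w.2.2.1 ^ 2 * (w.2.2.2 : ℂ) =
      ((w.2.2.2 : ℝ) : ℂ) * mu0 w := by
    rw [mu0]; ring
  rw [this, re_ofReal_mul]
  simp [b4]
  ring

/-- The zeros of the limit system. -/
def zset : Set E := {x | G x = 0 ∧ cm x.1 x.2 = 0 ∧
  ∀ ξ : A, fderiv ℝ G x (ξ, 0) = 0 → th x.1 x.2 ξ = 0}

theorem zset_form {x : E} (hx : x ∈ zset) :
    x.2.re = 0 ∧ x.2.imI = 0 ∧ x.2.imK = 0 ∧ x.2.imJ ^ 2 = 1 ∧ x.1.2.2.2 = 0 ∧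
      x.1.1.im = 0 ∧ x.1.1.re ^ 2 = 1 ∧ x.1.2.1.im = 0 ∧ x.1.2.2.1.im = 0 ∧
      ((x.1.2.1.re ^ 2 = 3 / 2 ∧ x.1.2.2.1.re ^ 3 = -1 / 2) ∨
        (x.1.2.1.re ^ 2 = 1 / 2 ∧ x.1.2.2.1.re ^ 3 = -3 / 2)) := by
  obtain ⟨⟨c, z1, z2, s⟩, v⟩ := x
  obtain ⟨hG, hcm, hth⟩ := hx
  obtain ⟨hc, hf, hD, hv, hre⟩ := (mem_iff _).1 hG
  simp only at hc hf hD hv hre hcm hth ⊢
  have hvn : (-v.imK) ^ 2 + v.imJ ^ 2 + v.imI ^ 2 = 1 := by
    have h1 : Quaternion.normSq v = 1 := by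
      rw [Quaternion.normSq_eq_norm_mul_self, hv]; norm_num
    rw [Quaternion.normSq_def', hre] at h1
    linear_combination h1
  have hci : Crit.Comm (c * z1) (c * z2) (-v.imK) v.imJ v.imI := by
    rw [cm_eq] at hcm
    have h1 := congrArg QuaternionAlgebra.imI hcm
    have h2 := congrArg QuaternionAlgebra.imJ hcm
    have h3 := congrArg QuaternionAlgebra.imK hcm
    simp only [Quaternion.imI_zero, Quaternion.imJ_zero, Quaternion.imK_zero] at h1 h2 h3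
    refine ⟨?_, ?_, ?_⟩
    · linarith
    · linarith
    · linarith
  have hthU : Crit.hf (c * z1) (c * z2) (I * (c * z1)) (I * (c * z2)) (-v.imK) v.imJ v.imI = 0 := by
    have h := hth _ (tangent_bU _ v)
    rw [th_eq _ _ hre] at h
    simp only [bU, mul_zero, add_zero, mul_assoc] at h
    linarith
  have hth' : ∀ d1 d2 ds, Crit.Tan z1 z2 s d1 d2 ds →
      Crit.hf (c * z1) (c * z2) (c * d1) (c * d2) (-v.imK) v.imJ v.imI = 0 := by
    intro d1 d2 ds h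
    have h1 := hth (0, d1, d2, ds) ((fderiv_G_zero_iff _ v _).2 ⟨by simp, h⟩)
    rw [th_eq _ _ hre] at h1
    simp only [zero_mul, zero_add] at h1
    linarith
  have key := Crit.crit1 (c := c) (z1 := z1) (z2 := z2) (s := s)
    (by rw [normSq_eq_norm_sq, hc]; norm_num)
    (by rw [normSq_eq_norm_sq]; change ‖fW (c, z1, z2, s)‖ ^ 2 = 1; rw [hf]; norm_num)
    (by rw [normSq_eq_norm_sq]; exact hD) hvn hci hthU hth'
  obtain ⟨k1, k2, k3, k4, k5, k6, k7, k8, k9⟩ := key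
  exact ⟨hre, k2, by linarith, k3, k4, k5, k6, k7, k8, k9⟩

/-- There are at most `16` zeros. -/
theorem encard_zset : zset.encard ≤ 16 := by
  classical
  let F : E → Bool × Bool × Bool × Bool := fun x =>
    (decide (0 < x.1.1.re), decide (0 < x.1.2.1.re), decide (0 < x.2.imJ),
      decide (x.1.2.1.re ^ 2 = 3 / 2))
  have hinj : Set.InjOn F zset := by
    intro x hx y hy hxy
    obtain ⟨a0, a1, a2, a3, a4, a5, a6, a7, a8, a9⟩ := zset_form hx
    obtain ⟨b0, b1, b2, b3, b4, b5, b6, b7, b8, b9⟩ := zset_form hy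
    simp only [F, Prod.mk.injEq, decide_eq_decide] at hxy
    obtain ⟨e1, e2, e3, e4⟩ := hxy
    have sgn : ∀ a b : ℝ, a ^ 2 = b ^ 2 → a ≠ 0 → (0 < a ↔ 0 < b) → a = b := by
      intro a b h h0 h'
      rcases sq_eq_sq_iff_eq_or_eq_neg.1 h with h1 | h1
      · exact h1
      · exfalso
        rcases lt_or_gt_of_ne h0 with h2 | h2
        · have : 0 < b := by linarith
          have := h'.2 this
          linarith
        · have := h'.1 h2
          linarith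
    have k1 : x.1.1.re = y.1.1.re := by
      refine sgn _ _ (by rw [a6, b6]) ?_ e1
      intro h; rw [h] at a6; norm_num at a6
    have k3 : x.2.imJ = y.2.imJ := by
      refine sgn _ _ (by rw [a3, b3]) ?_ e3
      intro h; rw [h] at a3; norm_num at a3
    have k2 : x.1.2.1.re = y.1.2.1.re ∧ x.1.2.2.1.re = y.1.2.2.1.re := by
      have odd3 : Odd 3 := by decide
      rcases a9 with ⟨u1, u2⟩ | ⟨u1, u2⟩ <;> rcases b9 with ⟨t1, t2⟩ | ⟨t1, t2⟩
      · refine ⟨sgn _ _ (by rw [u1, t1]) ?_ e2, ?_⟩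
        · intro h; rw [h] at u1; norm_num at u1
        · exact odd3.strictMono_pow.injective (by rw [u2, t2])
      · exfalso
        have := e4.1 u1
        rw [this] at t1; norm_num at t1
      · exfalso
        have := e4.2 t1
        rw [this] at u1; norm_num at u1
      · refine ⟨sgn _ _ (by rw [u1, t1]) ?_ e2, ?_⟩
        · intro h; rw [h] at u1; norm_num at u1
        · exact odd3.strictMono_pow.injective (by rw [u2, t2])
    refine Prod.ext (Prod.ext ?_ (Prod.ext ?_ (Prod.ext ?_ ?_))) ?_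
    · exact Complex.ext k1 (by rw [a5, b5])
    · exact Complex.ext k2.1 (by rw [a7, b7])
    · exact Complex.ext k2.2 (by rw [a8, b8])
    · rw [a4, b4]
    · ext
      · rw [a0, b0]
      · rw [a1, b1]
      · exact k3
      · rw [a2, b2]
  calc zset.encard ≤ (Set.univ : Set (Bool × Bool × Bool × Bool)).encard :=
        Set.encard_le_encard_of_injOn (fun _ _ => Set.mem_univ _) hinj
    _ = 16 := by
        rw [Set.encard_univ]
        simp

/-- The imaginary parts as continuous linear maps. -/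
noncomputable def imIL : ℍ[ℝ] →L[ℝ] ℝ :=
  LinearMap.toContinuousLinearMap
    { toFun := fun q => q.imI
      map_add' := fun _ _ => rfl
      map_smul' := fun _ _ => rfl }

/-- The imaginary parts as continuous linear maps. -/
noncomputable def imJL : ℍ[ℝ] →L[ℝ] ℝ :=
  LinearMap.toContinuousLinearMap
    { toFun := fun q => q.imJ
      map_add' := fun _ _ => rfl
      map_smul' := fun _ _ => rfl }

/-- The imaginary parts as continuous linear maps. -/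
noncomputable def imKL : ℍ[ℝ] →L[ℝ] ℝ :=
  LinearMap.toContinuousLinearMap
    { toFun := fun q => q.imK
      map_add' := fun _ _ => rfl
      map_smul' := fun _ _ => rfl }

/-- The zeros of the limit system are nondegenerate (line form). -/
theorem zset_nondeg {x : E} (hx : x ∈ zset) {ξ : E} (hξ : fderiv ℝ G x ξ = 0)
    (h0 : HasDerivAt (fun t : ℝ => cm (x + t • ξ).1 (x + t • ξ).2) 0 0)
    (hU : HasDerivAt (fun t : ℝ => th (x + t • ξ).1 (x + t • ξ).2 (bU (x + t • ξ).1)) 0 0)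
    (hR : HasDerivAt (fun t : ℝ => th (x + t • ξ).1 (x + t • ξ).2 (bR (x + t • ξ).1)) 0 0)
    (h3 : HasDerivAt (fun t : ℝ => th (x + t • ξ).1 (x + t • ξ).2 (b3 (x + t • ξ).1)) 0 0)
    (h4 : HasDerivAt (fun t : ℝ => th (x + t • ξ).1 (x + t • ξ).2 (b4 (x + t • ξ).1)) 0 0) :
    ξ = 0 := by
  obtain ⟨a0, a1, a2, a3, a4, a5, a6, a7, a8, a9⟩ := zset_form hx
  have hlin : ∀ {W : Type} [NormedAddCommGroup W] [NormedSpace ℝ W] (L : E →L[ℝ] W),
      HasDerivAt (fun t : ℝ => L (x + t • ξ)) (L ξ) 0 := by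
    intro W _ _ L
    have h1 : HasDerivAt (fun t : ℝ => x + t • ξ) ξ 0 := by
      have := ((hasDerivAt_id (0 : ℝ)).smul_const ξ).const_add x
      simpa using this
    exact L.hasFDerivAt.comp_hasDerivAt 0 h1
  let fA := ContinuousLinearMap.fst ℝ A B
  let sB := ContinuousLinearMap.snd ℝ A B
  have dc : HasDerivAt (fun t : ℝ => (x + t • ξ).1.1) ξ.1.1 0 :=
    hlin ((ContinuousLinearMap.fst ℝ ℂ (ℂ × ℂ × ℝ)).comp fA)
  have dz1 : HasDerivAt (fun t : ℝ => (x + t • ξ).1.2.1) ξ.1.2.1 0 :=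
    hlin ((ContinuousLinearMap.fst ℝ ℂ (ℂ × ℝ)).comp
      ((ContinuousLinearMap.snd ℝ ℂ (ℂ × ℂ × ℝ)).comp fA))
  have dz2 : HasDerivAt (fun t : ℝ => (x + t • ξ).1.2.2.1) ξ.1.2.2.1 0 :=
    hlin ((ContinuousLinearMap.fst ℝ ℂ ℝ).comp ((ContinuousLinearMap.snd ℝ ℂ (ℂ × ℝ)).comp
      ((ContinuousLinearMap.snd ℝ ℂ (ℂ × ℂ × ℝ)).comp fA)))
  have ds : HasDerivAt (fun t : ℝ => (x + t • ξ).1.2.2.2) ξ.1.2.2.2 0 :=
    hlin ((ContinuousLinearMap.snd ℝ ℂ ℝ).comp ((ContinuousLinearMap.snd ℝ ℂ (ℂ × ℝ)).comp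
      ((ContinuousLinearMap.snd ℝ ℂ (ℂ × ℂ × ℝ)).comp fA)))
  have dI : HasDerivAt (fun t : ℝ => (x + t • ξ).2.imI) ξ.2.imI 0 := hlin (imIL.comp sB)
  have dJ : HasDerivAt (fun t : ℝ => (x + t • ξ).2.imJ) ξ.2.imJ 0 := hlin (imJL.comp sB)
  have dK : HasDerivAt (fun t : ℝ => -(x + t • ξ).2.imK) (-ξ.2.imK) 0 :=
    (hlin (imKL.comp sB)).neg
  rw [fderiv_G] at hξ
  simp only [Prod.mk_eq_zero] at hξ
  obtain ⟨t1, t2, t3, t4, t5⟩ := hξ
  have e : ∀ a b : ℂ, inner ℝ a b = (conj a * b).re := fun a b => by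
    rw [Complex.inner, mul_comm]
  have hre : ∀ t : ℝ, (x + t • ξ).2.re = 0 := by
    intro t
    change x.2.re + t * ξ.2.re = 0
    rw [a0, t5]; ring
  have hzero : x + (0 : ℝ) • ξ = x := by simp
  have key := Crit.crit2 dc dz1 dz2 ds dK dJ dI
  rw [hzero] at key
  have hp : ∀ (b : A → A) (P Q : E → ℂ), (∀ y : E, (b y.1).1 * y.1.2.1 + y.1.1 * (b y.1).2.1 = P y) →
      (∀ y : E, (b y.1).1 * y.1.2.2.1 + y.1.1 * (b y.1).2.2.1 = Q y) →
      HasDerivAt (fun t : ℝ => th (x + t • ξ).1 (x + t • ξ).2 (b (x + t • ξ).1)) 0 0 →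
      HasDerivAt (fun t : ℝ => Crit.hf ((x + t • ξ).1.1 * (x + t • ξ).1.2.1)
        ((x + t • ξ).1.1 * (x + t • ξ).1.2.2.1) (P (x + t • ξ)) (Q (x + t • ξ))
        (-(x + t • ξ).2.imK) (x + t • ξ).2.imJ (x + t • ξ).2.imI) 0 0 := by
    intro b P Q hP hQ h
    have h' := h.const_mul (1 / 2 : ℝ)
    rw [mul_zero] at h'
    refine h'.congr_of_eventuallyEq (Filter.Eventually.of_forall fun t => ?_)
    simp only []
    rw [th_eq _ _ (hre t), hP, hQ]
    ring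
  obtain ⟨k1, k2, k3, k4, k5, k6, k7⟩ := key (by rw [a2]; simp) a1 a3 a4 a5 a6 a7 a8 a9
    (by rw [← e]; linarith)
    ⟨by
      have : inner ℝ (fW x.1) (dfW x.1 ξ.1) = 0 := by linarith
      rw [e] at this; exact this,
     by
      have : inner ℝ (dW x.1) (ddW x.1 ξ.1) + x.1.2.2.2 * ξ.1.2.2.2 = 0 := by linarith
      rw [e] at this; exact this⟩
    (by
      have : inner ℝ x.2 ξ.2 = 0 := by linarith
      rw [Quaternion.inner_def] at this
      simp only [Quaternion.re_mul, Quaternion.re_star, Quaternion.imI_star,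
        Quaternion.imJ_star, Quaternion.imK_star, t5] at this
      linarith)
    (by
      have h := (imKL.hasFDerivAt.comp_hasDerivAt 0 h0).const_mul (-1 / 2 : ℝ)
      rw [map_zero, mul_zero] at h
      refine h.congr_of_eventuallyEq (Filter.Eventually.of_forall fun t => ?_)
      change _ = -1 / 2 * (cm (x + t • ξ).1 (x + t • ξ).2).imK
      rw [cm_imK]
      ring)
    (by
      have h := (imIL.hasFDerivAt.comp_hasDerivAt 0 h0).const_mul (1 / 2 : ℝ)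
      rw [map_zero, mul_zero] at h
      refine h.congr_of_eventuallyEq (Filter.Eventually.of_forall fun t => ?_)
      change _ = 1 / 2 * (cm (x + t • ξ).1 (x + t • ξ).2).imI
      rw [cm_imI]
      ring)
    (hp bU (fun y => I * (y.1.1 * y.1.2.1)) (fun y => I * (y.1.1 * y.1.2.2.1))
      (fun y => by simp only [bU]; ring) (fun y => by simp only [bU]; ring) hU)
    (hp bR (fun y => 3 * I * (y.1.1 * y.1.2.1)) (fun y => 2 * I * (y.1.1 * y.1.2.2.1))
      (fun y => by simp only [bR]; ring) (fun y => by simp only [bR]; ring) hR)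
    (hp b4 (fun y => y.1.1 * (3 * y.1.2.2.1 ^ 2 * y.1.2.2.2))
      (fun y => y.1.1 * -(2 * y.1.2.1 * y.1.2.2.2))
      (fun y => by simp only [b4]; ring) (fun y => by simp only [b4]; ring) h4)
    (hp b3 (fun y => y.1.1 * (3 * y.1.2.2.1 ^ 2 * (I * conj (mu0 y.1))))
      (fun y => y.1.1 * -(2 * y.1.2.1 * (I * conj (mu0 y.1))))
      (fun y => by simp only [b3]; ring) (fun y => by simp only [b3]; ring) h3)
  refine Prod.ext (Prod.ext k1 (Prod.ext k2 (Prod.ext k3 k4))) ?_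
  ext
  · exact t5
  · exact k7
  · exact k6
  · simpa using k5

end Vale.Agent.P265.Dis
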