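import Mathlib.Analysis.Complex.Basic
import Mathlib.Tactic

/-!
# The critical points of the limit system (algebra)

`c, z₁, z₂ : ℂ`, `s : ℝ` with `|c| = 1`, `|f| = 1`, `|D|² + s² = 4`, `f = z₁² + z₂³`,
`D = z₁² - z₂³`; `p = c z₁`, `q = c z₂`; `(w₁, w₂, w₃)` a unit vector (the imaginary quaternion
`v' = w₁ i + w₂ j + w₃ k`).
-/

namespace Vale.Agent.P265.Crit

open Complex ComplexConjugate

/-- `⟨conj P · dP, v'⟩` for `P = p + q j`, `v' = w₁ i + (w₂ + i w₃) j`. -/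
def hf (p q dp dq : ℂ) (w1 w2 w3 : ℝ) : ℝ :=
  w1 * (conj p * dp + q * conj dq).im + w2 * (conj p * dq - q * conj dp).re +
    w3 * (conj p * dq - q * conj dp).im

theorem hf_eq (p q dp dq : ℂ) (w1 w2 w3 : ℝ) : hf p q dp dq w1 w2 w3 =
    w1 * (p.re * dp.im - p.im * dp.re + q.im * dq.re - q.re * dq.im) +
    w2 * (p.re * dq.re + p.im * dq.im - q.re * dp.re - q.im * dp.im) +
    w3 * (p.re * dq.im - p.im * dq.re + q.re * dp.im - q.im * dp.re) := by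
  simp [hf]
  ring

/-- The commutator condition (i): `Im (conj g₀ P) × v' = 0`. -/
def Comm (p q : ℂ) (w1 w2 w3 : ℝ) : Prop :=
  (q.re - p.re) * w3 - (q.im + p.im) * w2 = 0 ∧
  (q.im + p.im) * w1 - (p.im - q.im) * w3 = 0 ∧
  (p.im - q.im) * w2 - (q.re - p.re) * w1 = 0

/-- The tangency of `(dz₁, dz₂, ds)` to the two level sets in `(z₁, z₂, s)`. -/
def Tan (z1 z2 : ℂ) (s : ℝ) (d1 d2 : ℂ) (ds : ℝ) : Prop :=
  (conj (z1 ^ 2 + z2 ^ 3) * (2 * z1 * d1 + 3 * z2 ^ 2 * d2)).re = 0 ∧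
  (conj (z1 ^ 2 - z2 ^ 3) * (2 * z1 * d1 - 3 * z2 ^ 2 * d2)).re + s * ds = 0

theorem tan_R (z1 z2 : ℂ) (s : ℝ) : Tan z1 z2 s (3 * I * z1) (2 * I * z2) 0 := by
  constructor
  · have : conj (z1 ^ 2 + z2 ^ 3) * (2 * z1 * (3 * I * z1) + 3 * z2 ^ 2 * (2 * I * z2)) =
        (normSq (z1 ^ 2 + z2 ^ 3) : ℂ) * (6 * I) := by
      rw [normSq_eq_conj_mul_self]; ring
    rw [this]; simp
  · have : conj (z1 ^ 2 - z2 ^ 3) * (2 * z1 * (3 * I * z1) - 3 * z2 ^ 2 * (2 * I * z2)) =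
        (normSq (z1 ^ 2 - z2 ^ 3) : ℂ) * (6 * I) := by
      rw [normSq_eq_conj_mul_self]; ring
    rw [this]; simp

theorem tan_mu (z1 z2 : ℂ) (s : ℝ) (μ : ℂ) (ds : ℝ)
    (h : 12 * (conj (z1 ^ 2 - z2 ^ 3) * z1 * z2 ^ 2 * μ).re + s * ds = 0) :
    Tan z1 z2 s (3 * z2 ^ 2 * μ) (-(2 * z1 * μ)) ds := by
  constructor
  · have : conj (z1 ^ 2 + z2 ^ 3) * (2 * z1 * (3 * z2 ^ 2 * μ) + 3 * z2 ^ 2 * -(2 * z1 * μ)) = 0 := by
      ring
    rw [this]; simp
  · have : conj (z1 ^ 2 - z2 ^ 3) * (2 * z1 * (3 * z2 ^ 2 * μ) - 3 * z2 ^ 2 * -(2 * z1 * μ)) =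
        ((12 : ℝ) : ℂ) * (conj (z1 ^ 2 - z2 ^ 3) * z1 * z2 ^ 2 * μ) := by
      push_cast; ring
    rw [this, re_ofReal_mul]; exact h

/-- The classification of the zeros of the limit system. -/
theorem crit1 {c z1 z2 : ℂ} {s w1 w2 w3 : ℝ} (hc : normSq c = 1)
    (hF : normSq (z1 ^ 2 + z2 ^ 3) = 1) (hD : normSq (z1 ^ 2 - z2 ^ 3) + s ^ 2 = 4)
    (hw : w1 ^ 2 + w2 ^ 2 + w3 ^ 2 = 1) (hi : Comm (c * z1) (c * z2) w1 w2 w3)
    (hU : hf (c * z1) (c * z2) (I * (c * z1)) (I * (c * z2)) w1 w2 w3 = 0)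
    (hii : ∀ d1 d2 ds, Tan z1 z2 s d1 d2 ds →
      hf (c * z1) (c * z2) (c * d1) (c * d2) w1 w2 w3 = 0) :
    w1 = 0 ∧ w3 = 0 ∧ w2 ^ 2 = 1 ∧ s = 0 ∧ c.im = 0 ∧ c.re ^ 2 = 1 ∧ z1.im = 0 ∧ z2.im = 0 ∧
      ((z1.re ^ 2 = 3 / 2 ∧ z2.re ^ 3 = -1 / 2) ∨ (z1.re ^ 2 = 1 / 2 ∧ z2.re ^ 3 = -3 / 2)) := by
  have hR := hii _ _ _ (tan_R z1 z2 s)
  have hzero : z1 ≠ 0 ∨ z2 ≠ 0 := by
    by_contra hcon
    push Not at hcon
    rw [hcon.1, hcon.2] at hF
    simp at hF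
  have hcc : c * conj c = 1 := by rw [mul_conj, hc]; simp
  have hcc' : conj c * c = 1 := by rw [mul_comm]; exact hcc
  have hc0 : c ≠ 0 := by rintro rfl; simp at hc
  have hz1 : z1 = conj c * (c * z1) := by rw [← mul_assoc, hcc', one_mul]
  have hz2 : z2 = conj c * (c * z2) := by rw [← mul_assoc, hcc', one_mul]
  have e1 : c * (3 * I * z1) = 3 * I * (c * z1) := by ring
  have e2 : c * (2 * I * z2) = 2 * I * (c * z2) := by ring
  rw [e1, e2] at hR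
  -- the quantity `r² = |p|² + |q|²` is positive
  have hr : 0 < (c * z1).re ^ 2 + (c * z1).im ^ 2 + (c * z2).re ^ 2 + (c * z2).im ^ 2 := by
    have h1 : (c * z1).re ^ 2 + (c * z1).im ^ 2 = normSq (c * z1) := by
      rw [normSq_apply]; ring
    have h2 : (c * z2).re ^ 2 + (c * z2).im ^ 2 = normSq (c * z2) := by
      rw [normSq_apply]; ring
    have h3 : 0 ≤ normSq (c * z1) := normSq_nonneg _
    have h4 : 0 ≤ normSq (c * z2) := normSq_nonneg _
    rcases hzero with h | h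
    · have : 0 < normSq (c * z1) := normSq_pos.2 (mul_ne_zero hc0 h)
      linarith
    · have : 0 < normSq (c * z2) := normSq_pos.2 (mul_ne_zero hc0 h)
      linarith
  generalize hp : c * z1 = p at *
  generalize hq : c * z2 = q at *
  rw [hf_eq] at hU hR
  simp at hU hR
  obtain ⟨i1, i2, i3⟩ := hi
  have hw1 : w1 = 0 := by
    have : w1 * (p.re ^ 2 + p.im ^ 2 + q.re ^ 2 + q.im ^ 2) = 0 := by
      linear_combination 2 * hR - 5 * hU
    rcases mul_eq_zero.1 this with h | h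
    · exact h
    · exact absurd h hr.ne'
  subst hw1
  have hpq : p.im = q.im := by
    by_contra hne
    have hne' : p.im - q.im ≠ 0 := sub_ne_zero.2 hne
    have h3 : w3 = 0 := by
      have : (p.im - q.im) * w3 = 0 := by linear_combination -i2
      exact (mul_eq_zero.1 this).resolve_left hne'
    have h2 : w2 = 0 := by
      have : (p.im - q.im) * w2 = 0 := by linear_combination i3
      exact (mul_eq_zero.1 this).resolve_left hne'
    rw [h2, h3] at hw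
    norm_num at hw
  have hw3 : w3 = 0 := by
    have : w3 * (p.re ^ 2 + p.im ^ 2 + q.re ^ 2 + q.im ^ 2) = 0 := by
      rw [hpq] at i1 hU hR ⊢
      linear_combination hU - (p.re - q.re) * i1
    rcases mul_eq_zero.1 this with h | h
    · exact h
    · exact absurd h hr.ne'
  subst hw3
  have hw2 : w2 ^ 2 = 1 := by linear_combination hw
  have hw2' : w2 ≠ 0 := by rintro rfl; norm_num at hw2
  have hpim : p.im = 0 := by
    have : 2 * w2 * p.im = 0 := by rw [hpq] at i1 ⊢; linear_combination -i1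
    rcases mul_eq_zero.1 this with h | h
    · rcases mul_eq_zero.1 h with h | h
      · norm_num at h
      · exact absurd h hw2'
    · exact h
  have hqim : q.im = 0 := by rw [← hpq]; exact hpim
  obtain ⟨x, hx⟩ : ∃ x : ℝ, p = x := ⟨p.re, by apply Complex.ext <;> simp [hpim]⟩
  obtain ⟨y, hy⟩ : ∃ y : ℝ, q = y := ⟨q.re, by apply Complex.ext <;> simp [hqim]⟩
  subst hx hy
  -- the fibre directions
  have hfib : ∀ (μ : ℂ) (ds : ℝ),
      12 * (conj (z1 ^ 2 - z2 ^ 3) * z1 * z2 ^ 2 * μ).re + s * ds = 0 →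
      ((2 * x ^ 2 + 3 * y ^ 3 * conj c) * μ).re = 0 := by
    intro μ ds h
    have h1 := hii _ _ _ (tan_mu z1 z2 s μ ds h)
    have e3 : c * (3 * z2 ^ 2 * μ) = 3 * conj c * y ^ 2 * μ := by
      rw [hz2]; linear_combination (3 * conj c * y ^ 2 * μ) * hcc
    have e4 : c * -(2 * z1 * μ) = -(2 * x * μ) := by
      rw [← hp]; ring
    rw [e3, e4, hf_eq] at h1
    have h2 : w2 * ((2 * x ^ 2 + 3 * y ^ 3 * conj c) * μ).re = 0 := by
      have e5 : ((3 : ℂ) * conj c * y ^ 2 * μ).re = 3 * y ^ 2 * (conj c * μ).re := by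
        have : (3 : ℂ) * conj c * y ^ 2 * μ = ((3 * y ^ 2 : ℝ) : ℂ) * (conj c * μ) := by
          push_cast; ring
        rw [this, re_ofReal_mul]
      have e6 : (-((2 : ℂ) * x * μ)).re = - (2 * x) * μ.re := by
        have : (-((2 : ℂ) * x * μ)) = ((-(2 * x) : ℝ) : ℂ) * μ := by push_cast; ring
        rw [this, re_ofReal_mul]
      have e7 : (((2 : ℂ) * x ^ 2 + 3 * y ^ 3 * conj c) * μ).re =
          2 * x ^ 2 * μ.re + 3 * y ^ 3 * (conj c * μ).re := by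
        have : ((2 : ℂ) * x ^ 2 + 3 * y ^ 3 * conj c) * μ =
          ((2 * x ^ 2 : ℝ) : ℂ) * μ + ((3 * y ^ 3 : ℝ) : ℂ) * (conj c * μ) := by push_cast; ring
        rw [this, add_re, re_ofReal_mul, re_ofReal_mul]
      rw [e7]
      rw [e5, e6] at h1
      simp only [ofReal_re, ofReal_im] at h1
      linear_combination -h1
    exact (mul_eq_zero.1 h2).resolve_left hw2'
  have hz1' : z1 = conj c * x := hz1
  have hz2' : z2 = conj c * y := hz2
  have hf' : z1 ^ 2 + z2 ^ 3 = conj c ^ 2 * (x ^ 2 + conj c * y ^ 3) := by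
    rw [hz1', hz2']; ring
  have hD' : z1 ^ 2 - z2 ^ 3 = conj c ^ 2 * (x ^ 2 - conj c * y ^ 3) := by
    rw [hz1', hz2']; ring
  have hnc : normSq (conj c ^ 2) = 1 := by simp [hc]
  have hF' : normSq ((x : ℂ) ^ 2 + conj c * y ^ 3) = 1 := by
    rw [hf', normSq_mul, hnc, one_mul] at hF; exact hF
  have hDD' : normSq ((x : ℂ) ^ 2 - conj c * y ^ 3) + s ^ 2 = 4 := by
    rw [hD', normSq_mul, hnc, one_mul] at hD; exact hD
  have hs : s = 0 := by
    by_contra hs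
    have hK : (2 * x ^ 2 + 3 * y ^ 3 * conj c : ℂ) = 0 := by
      have h1 := hfib (conj (2 * x ^ 2 + 3 * y ^ 3 * conj c : ℂ))
        (-(12 * (conj (z1 ^ 2 - z2 ^ 3) * z1 * z2 ^ 2 *
          (conj (2 * x ^ 2 + 3 * y ^ 3 * conj c : ℂ))).re) / s) (by field_simp; ring)
      rw [mul_conj, ofReal_re] at h1
      exact normSq_eq_zero.1 h1
    have h2 : ((x : ℂ) ^ 2 - conj c * y ^ 3) = 5 * ((x : ℂ) ^ 2 + conj c * y ^ 3) := by
      linear_combination -2 * hK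
    rw [h2, normSq_mul, hF'] at hDD'
    have : normSq (5 : ℂ) = 25 := by
      rw [show (5 : ℂ) = ((5 : ℝ) : ℂ) by norm_num, normSq_ofReal]; norm_num
    rw [this] at hDD'
    nlinarith [sq_nonneg s]
  subst hs
  have hxy : x ≠ 0 ∧ y ≠ 0 := by
    constructor
    · rintro rfl
      have h : ((0 : ℝ) : ℂ) ^ 2 - conj c * y ^ 3 = -(((0 : ℝ) : ℂ) ^ 2 + conj c * y ^ 3) := by
        push_cast; ring
      rw [h, normSq_neg, hF'] at hDD'
      norm_num at hDD'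
    · rintro rfl
      have h : (x : ℂ) ^ 2 - conj c * ((0 : ℝ) : ℂ) ^ 3 =
          (x : ℂ) ^ 2 + conj c * ((0 : ℝ) : ℂ) ^ 3 := by
        push_cast; ring
      rw [h, hF'] at hDD'
      norm_num at hDD'
  have hcim : c.im = 0 := by
    have hm : conj (z1 ^ 2 - z2 ^ 3) * z1 * z2 ^ 2 = (x * y ^ 2 : ℝ) * (conj c * x ^ 2 - y ^ 3) := by
      rw [hD', hz1', hz2']
      simp only [map_mul, map_pow, map_sub, conj_conj, conj_ofReal, ofReal_mul, ofReal_pow]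
      linear_combination (x * y ^ 2 * (conj c * x ^ 2 * (c * conj c + 1) -
        (c * conj c) ^ 2 * y ^ 3 - (c * conj c) * y ^ 3 - y ^ 3)) * hcc
    have h1 := hfib (I * (c * x ^ 2 - y ^ 3)) 0 (by
      rw [hm]
      have : ((x * y ^ 2 : ℝ) : ℂ) * (conj c * x ^ 2 - y ^ 3) * (I * (c * x ^ 2 - y ^ 3)) =
        ((x * y ^ 2 * normSq (c * x ^ 2 - y ^ 3) : ℝ) : ℂ) * I := by
        rw [ofReal_mul (x * y ^ 2) (normSq _), normSq_eq_conj_mul_self]
        simp only [map_mul, map_pow, map_sub, conj_ofReal]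
        ring
      rw [this, re_ofReal_mul]; simp)
    have h2 : (((2 : ℂ) * x ^ 2 + 3 * y ^ 3 * conj c) * (I * (c * x ^ 2 - y ^ 3))).re =
        -((2 * x ^ 4 + 3 * y ^ 6) * c.im) := by
      have : ((2 : ℂ) * x ^ 2 + 3 * y ^ 3 * conj c) * (I * (c * x ^ 2 - y ^ 3)) =
          ((3 * x ^ 2 * y ^ 3 - 2 * x ^ 2 * y ^ 3 : ℝ) : ℂ) * I +
          ((2 * x ^ 4 : ℝ) : ℂ) * (I * c) - ((3 * y ^ 6 : ℝ) : ℂ) * (I * conj c) := by
        push_cast
        linear_combination (3 * x ^ 2 * y ^ 3 * I) * hcc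
      rw [this, sub_re, add_re, re_ofReal_mul, re_ofReal_mul, re_ofReal_mul]
      simp
      ring
    rw [h2, neg_eq_zero] at h1
    have h3 : 0 < 2 * x ^ 4 + 3 * y ^ 6 := by
      have := hxy.1
      positivity
    exact (mul_eq_zero.1 h1).resolve_left h3.ne'
  have hcre : c.re ^ 2 = 1 := by
    rw [normSq_apply, hcim] at hc; linear_combination hc
  have hcr : conj c = c := by rw [conj_eq_iff_im]; exact hcim
  have hz1im : z1.im = 0 := by
    rw [hz1']; simp [hcim]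
  have hz2im : z2.im = 0 := by
    rw [hz2']; simp [hcim]
  refine ⟨rfl, rfl, hw2, rfl, hcim, hcre, hz1im, hz2im, ?_⟩
  obtain ⟨a, ha⟩ : ∃ a : ℝ, z1 = a := ⟨z1.re, by apply Complex.ext <;> simp [hz1im]⟩
  obtain ⟨b, hb⟩ : ∃ b : ℝ, z2 = b := ⟨z2.re, by apply Complex.ext <;> simp [hz2im]⟩
  rw [ha, hb] at hF hD
  have g1 : (a ^ 2 + b ^ 3) ^ 2 = 1 := by
    have : ((a : ℂ) ^ 2 + (b : ℂ) ^ 3) = ((a ^ 2 + b ^ 3 : ℝ) : ℂ) := by push_cast; rfl
    rw [this, normSq_ofReal] at hF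
    linear_combination hF
  have g2 : (a ^ 2 - b ^ 3) ^ 2 = 4 := by
    have : ((a : ℂ) ^ 2 - (b : ℂ) ^ 3) = ((a ^ 2 - b ^ 3 : ℝ) : ℂ) := by push_cast; rfl
    rw [this, normSq_ofReal] at hD
    linear_combination hD
  rw [ha, hb]
  simp only [ofReal_re]
  have g1' : a ^ 2 + b ^ 3 = 1 ∨ a ^ 2 + b ^ 3 = -1 := by
    apply sq_eq_sq_iff_eq_or_eq_neg.1
    rw [g1]; norm_num
  have g2' : a ^ 2 - b ^ 3 = 2 ∨ a ^ 2 - b ^ 3 = -2 := by
    apply sq_eq_sq_iff_eq_or_eq_neg.1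
    rw [g2]; norm_num
  have ha2 : 0 ≤ a ^ 2 := sq_nonneg a
  rcases g1' with h | h <;> rcases g2' with h' | h'
  · left; constructor <;> linarith
  · exfalso; linarith
  · right; constructor <;> linarith
  · exfalso; linarith

end Vale.Agent.P265.Crit
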