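import Vale.Agent.P265.H117.CritAlg
import Mathlib.Analysis.Calculus.Deriv.Add
import Mathlib.Analysis.Calculus.Deriv.Mul
import Mathlib.Analysis.Calculus.Deriv.Pow
import Mathlib.Analysis.Calculus.Deriv.Star
import Mathlib.Analysis.Complex.RealDeriv

/-!
# Nondegeneracy of the zeros of the limit system (algebra)
-/

namespace Vale.Agent.P265.Crit

open Complex ComplexConjugate

theorem hasDerivAt_re {f : ℝ → ℂ} {f' : ℂ} {t : ℝ} (h : HasDerivAt f f' t) :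
    HasDerivAt (fun t => (f t).re) f'.re t :=
  (reCLM.hasFDerivAt.comp_hasDerivAt t h)

theorem hasDerivAt_im {f : ℝ → ℂ} {f' : ℂ} {t : ℝ} (h : HasDerivAt f f' t) :
    HasDerivAt (fun t => (f t).im) f'.im t :=
  (imCLM.hasFDerivAt.comp_hasDerivAt t h)

theorem hasDerivAt_conj {f : ℝ → ℂ} {f' : ℂ} {t : ℝ} (h : HasDerivAt f f' t) :
    HasDerivAt (fun t => conj (f t)) (conj f') t :=
  ((conjCLE : ℂ ≃L[ℝ] ℂ).toContinuousLinearMap.hasFDerivAt.comp_hasDerivAt t h)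

theorem hasDerivAt_ofReal {f : ℝ → ℝ} {f' : ℝ} {t : ℝ} (h : HasDerivAt f f' t) :
    HasDerivAt (fun t => ((f t : ℝ) : ℂ)) (f' : ℂ) t :=
  (ofRealCLM.hasFDerivAt.comp_hasDerivAt t h)

theorem hf_hasDerivAt {p q P Q : ℝ → ℂ} {w1 w2 w3 : ℝ → ℝ} {p' q' P' Q' : ℂ}
    {w1' w2' w3' : ℝ} {t : ℝ} (hp : HasDerivAt p p' t) (hq : HasDerivAt q q' t)
    (hP : HasDerivAt P P' t) (hQ : HasDerivAt Q Q' t) (h1 : HasDerivAt w1 w1' t)
    (h2 : HasDerivAt w2 w2' t) (h3 : HasDerivAt w3 w3' t) :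
    HasDerivAt (fun t => hf (p t) (q t) (P t) (Q t) (w1 t) (w2 t) (w3 t))
      (hf p' q' (P t) (Q t) (w1 t) (w2 t) (w3 t) + hf (p t) (q t) P' Q' (w1 t) (w2 t) (w3 t) +
        hf (p t) (q t) (P t) (Q t) w1' w2' w3') t := by
  simp only [hf_eq]
  have pr := hasDerivAt_re hp
  have pi := hasDerivAt_im hp
  have qr := hasDerivAt_re hq
  have qi := hasDerivAt_im hq
  have Pre := hasDerivAt_re hP
  have Pim := hasDerivAt_im hP
  have Qr := hasDerivAt_re hQ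
  have Qi := hasDerivAt_im hQ
  have := ((h1.mul ((((pr.mul Pim).sub (pi.mul Pre)).add (qi.mul Qr)).sub (qr.mul Qi))).add
    (h2.mul ((((pr.mul Qr).add (pi.mul Qi)).sub (qr.mul Pre)).sub (qi.mul Pim)))).add
    (h3.mul ((((pr.mul Qi).sub (pi.mul Qr)).add (qr.mul Pim)).sub (qi.mul Pre)))
  refine HasDerivAt.congr_deriv this ?_
  simp only [Pi.mul_apply, Pi.add_apply, Pi.sub_apply]
  ring


/-- Nondegeneracy, in terms of curves through a zero. -/
theorem crit2 {c z1 z2 : ℝ → ℂ} {s w1 w2 w3 : ℝ → ℝ} {dc dz1 dz2 : ℂ} {ds dw1 dw2 dw3 : ℝ}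
    (hc : HasDerivAt c dc 0) (hz1 : HasDerivAt z1 dz1 0) (hz2 : HasDerivAt z2 dz2 0)
    (hs : HasDerivAt s ds 0) (hw1 : HasDerivAt w1 dw1 0) (hw2 : HasDerivAt w2 dw2 0)
    (hw3 : HasDerivAt w3 dw3 0)
    -- the point is one of the zeros
    (v1 : w1 0 = 0) (v3 : w3 0 = 0) (v2 : w2 0 ^ 2 = 1) (vs : s 0 = 0) (vc : (c 0).im = 0)
    (vc' : (c 0).re ^ 2 = 1) (vz1 : (z1 0).im = 0) (vz2 : (z2 0).im = 0)
    (vz : ((z1 0).re ^ 2 = 3 / 2 ∧ (z2 0).re ^ 3 = -1 / 2) ∨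
      ((z1 0).re ^ 2 = 1 / 2 ∧ (z2 0).re ^ 3 = -3 / 2))
    -- tangency
    (tc : (conj (c 0) * dc).re = 0) (tz : Tan (z1 0) (z2 0) (s 0) dz1 dz2 ds)
    (tw : w1 0 * dw1 + w2 0 * dw2 + w3 0 * dw3 = 0)
    -- the linearised equation (i)
    (hi1 : HasDerivAt (fun t => ((c t * z2 t).re - (c t * z1 t).re) * w3 t -
      ((c t * z2 t).im + (c t * z1 t).im) * w2 t) 0 0)
    (hi3 : HasDerivAt (fun t => ((c t * z1 t).im - (c t * z2 t).im) * w2 t -
      ((c t * z2 t).re - (c t * z1 t).re) * w1 t) 0 0)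
    -- the linearised equations (ii)
    (hU : HasDerivAt (fun t => hf (c t * z1 t) (c t * z2 t) (I * (c t * z1 t)) (I * (c t * z2 t))
      (w1 t) (w2 t) (w3 t)) 0 0)
    (hR : HasDerivAt (fun t => hf (c t * z1 t) (c t * z2 t) (3 * I * (c t * z1 t))
      (2 * I * (c t * z2 t)) (w1 t) (w2 t) (w3 t)) 0 0)
    (hB4 : HasDerivAt (fun t => hf (c t * z1 t) (c t * z2 t) (c t * (3 * z2 t ^ 2 * s t))
      (c t * -(2 * z1 t * s t)) (w1 t) (w2 t) (w3 t)) 0 0)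
    (hB3 : HasDerivAt (fun t => hf (c t * z1 t) (c t * z2 t)
      (c t * (3 * z2 t ^ 2 * (I * conj (conj (z1 t ^ 2 - z2 t ^ 3) * z1 t * z2 t ^ 2))))
      (c t * -(2 * z1 t * (I * conj (conj (z1 t ^ 2 - z2 t ^ 3) * z1 t * z2 t ^ 2))))
      (w1 t) (w2 t) (w3 t)) 0 0) :
    dc = 0 ∧ dz1 = 0 ∧ dz2 = 0 ∧ ds = 0 ∧ dw1 = 0 ∧ dw2 = 0 ∧ dw3 = 0 := by
  obtain ⟨e, he⟩ : ∃ e : ℝ, c 0 = e := ⟨(c 0).re, by apply Complex.ext <;> simp [vc]⟩
  obtain ⟨X, hX⟩ : ∃ X : ℝ, z1 0 = X := ⟨(z1 0).re, by apply Complex.ext <;> simp [vz1]⟩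
  obtain ⟨Y, hY⟩ : ∃ Y : ℝ, z2 0 = Y := ⟨(z2 0).re, by apply Complex.ext <;> simp [vz2]⟩
  obtain ⟨σ, hσ⟩ : ∃ σ : ℝ, w2 0 = σ := ⟨_, rfl⟩
  rw [hσ] at v2 tw
  rw [he] at vc' tc
  rw [hX, hY] at vz tz
  rw [v1, v3] at tw
  rw [vs] at tz
  simp only [ofReal_re] at vc' vz
  have e0 : e ≠ 0 := by rintro rfl; norm_num at vc'
  have s0 : σ ≠ 0 := by rintro rfl; norm_num at v2
  have X0 : X ≠ 0 := by
    rintro rfl
    rcases vz with h | h <;> norm_num at h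
  have Y0 : Y ≠ 0 := by
    rintro rfl
    rcases vz with h | h <;> norm_num at h
  have dw2' : dw2 = 0 := by
    have : σ * dw2 = 0 := by linear_combination tw
    exact (mul_eq_zero.1 this).resolve_left s0
  subst dw2'
  have dcre : dc.re = 0 := by
    simp only [conj_ofReal, re_ofReal_mul] at tc
    exact (mul_eq_zero.1 tc).resolve_left e0
  obtain ⟨γ, hγ⟩ : ∃ γ : ℝ, dc = γ * I := ⟨dc.im, by apply Complex.ext <;> simp [dcre]⟩
  have hf0 : X ^ 2 + Y ^ 3 ≠ 0 := by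
    rcases vz with h | h
    · rw [h.1, h.2]; norm_num
    · rw [h.1, h.2]; norm_num
  have hD0 : X ^ 2 - Y ^ 3 ≠ 0 := by
    rcases vz with h | h
    · rw [h.1, h.2]; norm_num
    · rw [h.1, h.2]; norm_num
  have hdz : dz1.re = 0 ∧ dz2.re = 0 := by
    obtain ⟨t1, t2⟩ := tz
    have a1 : conj ((X : ℂ) ^ 2 + (Y : ℂ) ^ 3) * (2 * X * dz1 + 3 * (Y : ℂ) ^ 2 * dz2) =
        ((X ^ 2 + Y ^ 3 : ℝ) : ℂ) * (((2 * X : ℝ) : ℂ) * dz1 + ((3 * Y ^ 2 : ℝ) : ℂ) * dz2) := by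
      simp only [map_add, map_pow, conj_ofReal]
      push_cast
      ring
    have a2 : conj ((X : ℂ) ^ 2 - (Y : ℂ) ^ 3) * (2 * X * dz1 - 3 * (Y : ℂ) ^ 2 * dz2) =
        ((X ^ 2 - Y ^ 3 : ℝ) : ℂ) * (((2 * X : ℝ) : ℂ) * dz1 - ((3 * Y ^ 2 : ℝ) : ℂ) * dz2) := by
      simp only [map_sub, map_pow, conj_ofReal]
      push_cast
      ring
    rw [a1, re_ofReal_mul, add_re, re_ofReal_mul, re_ofReal_mul] at t1
    rw [a2, re_ofReal_mul, sub_re, re_ofReal_mul, re_ofReal_mul, zero_mul, add_zero] at t2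
    have t1' := (mul_eq_zero.1 t1).resolve_left hf0
    have t2' := (mul_eq_zero.1 t2).resolve_left hD0
    constructor
    · have : 4 * X * dz1.re = 0 := by linear_combination t1' + t2'
      exact (mul_eq_zero.1 this).resolve_left (by positivity)
    · have : 6 * Y ^ 2 * dz2.re = 0 := by linear_combination t1' - t2'
      exact (mul_eq_zero.1 this).resolve_left (by positivity)
  obtain ⟨β₁, hβ₁⟩ : ∃ β : ℝ, dz1 = β * I := ⟨dz1.im, by apply Complex.ext <;> simp [hdz.1]⟩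
  obtain ⟨β₂, hβ₂⟩ : ∃ β : ℝ, dz2 = β * I := ⟨dz2.im, by apply Complex.ext <;> simp [hdz.2]⟩
  subst hγ hβ₁ hβ₂
  have hp := hc.mul hz1
  have hq := hc.mul hz2
  -- (ii) for `U` and `R`
  have kU := hU.unique (hf_hasDerivAt hp hq (hp.const_mul I) (hq.const_mul I) hw1 hw2 hw3)
  have kR := hR.unique (hf_hasDerivAt hp hq (hp.const_mul (3 * I)) (hq.const_mul (2 * I))
    hw1 hw2 hw3)
  simp only [hf_eq, he, hX, hY, hσ, v1, v3] at kU kR
  simp at kU kR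
  have k1 := hi1.unique ((((hasDerivAt_re hq).sub (hasDerivAt_re hp)).mul hw3).sub
    (((hasDerivAt_im hq).add (hasDerivAt_im hp)).mul hw2))
  have k3 := hi3.unique ((((hasDerivAt_im hp).sub (hasDerivAt_im hq)).mul hw2).sub
    (((hasDerivAt_re hq).sub (hasDerivAt_re hp)).mul hw1))
  simp [he, hX, hY, hσ, v1, v3] at k1 k3
  have hXY : 0 < X ^ 2 + Y ^ 2 := by positivity
  have dw1' : dw1 = 0 := by
    have : dw1 * (X ^ 2 + Y ^ 2) = 0 := by
      linear_combination (5 * kU - 2 * kR) - dw1 * (X ^ 2 + Y ^ 2) * vc'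
    exact (mul_eq_zero.1 this).resolve_right hXY.ne'
  subst dw1'
  have hT : γ * X + e * β₁ = γ * Y + e * β₂ := by
    have : σ * ((γ * X + e * β₁) - (γ * Y + e * β₂)) = 0 := by linear_combination -k3
    exact sub_eq_zero.1 ((mul_eq_zero.1 this).resolve_left s0)
  have dw3' : dw3 = 0 := by
    have : dw3 * (X ^ 2 + Y ^ 2) = 0 := by
      linear_combination (-kU) - e * (Y - X) * k1 - σ * e * (X + Y) * hT -
        dw3 * (X ^ 2 + Y ^ 2) * vc'
    exact (mul_eq_zero.1 this).resolve_right hXY.ne'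
  subst dw3'
  have hT1 : γ * X + e * β₁ = 0 := by
    have : σ * (γ * X + e * β₁) = 0 := by linear_combination (1 / 2) * k1 + σ / 2 * hT
    exact (mul_eq_zero.1 this).resolve_left s0
  have hT2 : γ * Y + e * β₂ = 0 := by rw [← hT, hT1]
  -- (ii) for `B₄`
  have hsC := hasDerivAt_ofReal hs
  have k4 := hB4.unique (hf_hasDerivAt hp hq (hc.mul (((hz2.pow 2).const_mul 3).mul hsC))
    (hc.mul ((hz1.const_mul 2).mul hsC).neg) hw1 hw2 hw3)
  simp [hf_eq, he, hX, hY, hσ, v1, v3, vs, pow_two] at k4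
  have hds : ds = 0 := by
    have k4' := k4.resolve_left s0
    have h1 : (2 * X ^ 2 + 3 * Y ^ 3) * ds = 0 := by
      linear_combination -k4' - (2 * X ^ 2 + 3 * Y ^ 3) * ds * vc'
    refine (mul_eq_zero.1 h1).resolve_left ?_
    rcases vz with h | h
    · rw [h.1, h.2]; norm_num
    · rw [h.1, h.2]; norm_num
  subst hds
  -- (ii) for `B₃`
  have hD := (hz1.pow 2).sub (hz2.pow 3)
  have hm := ((hasDerivAt_conj hD).mul hz1).mul (hz2.pow 2)
  have hμ := (hasDerivAt_conj hm).const_mul I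
  have k5 := hB3.unique (hf_hasDerivAt hp hq (hc.mul (((hz2.pow 2).const_mul 3).mul hμ))
    (hc.mul ((hz1.const_mul 2).mul hμ).neg) hw1 hw2 hw3)
  simp [hf_eq, he, hX, hY, hσ, v1, v3, pow_succ] at k5
  have hγ : γ = 0 := by
    have h1 : σ * (X * Y ^ 2 * (2 * X ^ 4 + 3 * Y ^ 6)) * γ = 0 := by
      rcases (sq_eq_sq_iff_eq_or_eq_neg.1 (vc'.trans (one_pow 2).symm)) with h | h
      · subst h
        have hb1 : β₁ = -(γ * X) := by linear_combination hT1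
        have hb2 : β₂ = -(γ * Y) := by linear_combination hT2
        rw [hb1, hb2] at k5
        linear_combination -k5
      · subst h
        have hb1 : β₁ = γ * X := by linear_combination -hT1
        have hb2 : β₂ = γ * Y := by linear_combination -hT2
        rw [hb1, hb2] at k5
        linear_combination k5
    refine (mul_eq_zero.1 h1).resolve_left ?_
    have h2 : 0 < 2 * X ^ 4 + 3 * Y ^ 6 := by positivity
    exact mul_ne_zero s0 (mul_ne_zero (mul_ne_zero X0 (pow_ne_zero 2 Y0)) h2.ne')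
  subst hγ
  have hb1 : β₁ = 0 := by
    have : e * β₁ = 0 := by linear_combination hT1
    exact (mul_eq_zero.1 this).resolve_left e0
  have hb2 : β₂ = 0 := by
    have : e * β₂ = 0 := by linear_combination hT2
    exact (mul_eq_zero.1 this).resolve_left e0
  subst hb1 hb2
  simp

end Vale.Agent.P265.Crit
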