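import Vale.Agent.P265.H117.Crit
import Mathlib.Analysis.Calculus.Deriv.Prod

/-!
# Smoothness of the functions of the limit system, and the `fderiv` form of nondegeneracy
-/

open scoped Quaternion ContDiff ComplexConjugate
open Complex

namespace Vale.Agent.P265.Dis

/-- `(z₁, z₂) ↦ z₁ + z₂ j` as a continuous linear map. -/
noncomputable def qcL : ℂ × ℂ →L[ℝ] ℍ[ℝ] :=
  LinearMap.toContinuousLinearMap
    { toFun := fun z => qcH z.1 z.2
      map_add' := fun _ _ => rfl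
      map_smul' := fun r z => by
        ext <;> simp }

theorem qcL_apply (z : ℂ × ℂ) : qcL z = qcH z.1 z.2 := rfl

theorem contDiff_Pq : ContDiff ℝ ∞ Pq := by
  have : Pq = fun w : A => qcL (w.1 * w.2.1, w.1 * w.2.2.1) := rfl
  rw [this]
  exact qcL.contDiff.comp (by fun_prop)

theorem hasFDerivAt_Pq (w : A) : HasFDerivAt Pq (fderiv ℝ Pq w) w :=
  (contDiff_Pq.differentiable (by simp) w).hasFDerivAt

theorem fderiv_Pq (w ξ : A) : fderiv ℝ Pq w ξ = DPq w ξ := by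
  have h1 : HasDerivAt (fun t : ℝ => w + t • ξ) ξ 0 := by
    have := ((hasDerivAt_id (0 : ℝ)).smul_const ξ).const_add w
    simpa using this
  have h0 : w + (0 : ℝ) • ξ = w := by simp
  have h2 : HasDerivAt (fun t : ℝ => Pq (w + t • ξ)) (fderiv ℝ Pq w ξ) 0 := by
    have := hasFDerivAt_Pq w
    rw [← h0] at this
    have h3 := this.comp_hasDerivAt 0 h1
    rw [h0] at h3
    exact h3
  have hc : HasDerivAt (fun t : ℝ => (w + t • ξ).1) ξ.1 0 := by
    have := (ContinuousLinearMap.fst ℝ ℂ (ℂ × ℂ × ℝ)).hasFDerivAt.comp_hasDerivAt 0 h1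
    exact this
  have hz1 : HasDerivAt (fun t : ℝ => (w + t • ξ).2.1) ξ.2.1 0 := by
    have := ((ContinuousLinearMap.fst ℝ ℂ (ℂ × ℝ)).comp
      (ContinuousLinearMap.snd ℝ ℂ (ℂ × ℂ × ℝ))).hasFDerivAt.comp_hasDerivAt 0 h1
    exact this
  have hz2 : HasDerivAt (fun t : ℝ => (w + t • ξ).2.2.1) ξ.2.2.1 0 := by
    have := ((ContinuousLinearMap.fst ℝ ℂ ℝ).comp ((ContinuousLinearMap.snd ℝ ℂ (ℂ × ℝ)).comp
      (ContinuousLinearMap.snd ℝ ℂ (ℂ × ℂ × ℝ)))).hasFDerivAt.comp_hasDerivAt 0 h1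
    exact this
  have h4 := qcL.hasFDerivAt.comp_hasDerivAt (0 : ℝ) ((hc.mul hz1).prodMk (hc.mul hz2))
  have h5 := h2.unique h4
  rw [h5]
  simp only [zero_smul, add_zero]
  rfl

/-- The conjugation as a continuous linear map. -/
noncomputable def stL : ℍ[ℝ] →L[ℝ] ℍ[ℝ] :=
  LinearMap.toContinuousLinearMap
    { toFun := fun q => star q
      map_add' := fun _ _ => star_add _ _
      map_smul' := fun r q => by
        ext <;> simp }

theorem contDiff_th : ContDiff ℝ ∞ (fun y : A × ℍ[ℝ] × A => th y.1 y.2.1 y.2.2) := by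
  have h1 : ContDiff ℝ ∞ (fun y : A × ℍ[ℝ] × A => star (Pq y.1)) :=
    stL.contDiff.comp (contDiff_Pq.comp contDiff_fst)
  have h2 : ContDiff ℝ ∞ (fun y : A × ℍ[ℝ] × A => DPq y.1 y.2.2) := by
    have : (fun y : A × ℍ[ℝ] × A => DPq y.1 y.2.2) =
        fun y => qcL (y.2.2.1 * y.1.2.1 + y.1.1 * y.2.2.2.1,
          y.2.2.1 * y.1.2.2.1 + y.1.1 * y.2.2.2.2.1) := rfl
    rw [this]
    exact qcL.contDiff.comp (by fun_prop)
  have h3 : ContDiff ℝ ∞ (fun y : A × ℍ[ℝ] × A => star g0 * y.2.1 * g0) := by fun_prop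
  exact (h1.mul h2).inner ℝ h3

theorem contDiff_cm : ContDiff ℝ ∞ (fun y : E => cm y.1 y.2) := by
  have h1 : ContDiff ℝ ∞ (fun y : E => Pq y.1) := contDiff_Pq.comp contDiff_fst
  unfold cm
  exact ((h1.mul contDiff_const).mul contDiff_snd).sub
    (contDiff_snd.mul (h1.mul contDiff_const))

theorem contDiff_mu0 : ContDiff ℝ ∞ mu0 := by
  unfold mu0
  have h1 : ContDiff ℝ ∞ (fun w : A => conj (w.2.1 ^ 2 - w.2.2.1 ^ 3)) :=
    (conjCLE : ℂ ≃L[ℝ] ℂ).contDiff.comp (by fun_prop)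
  exact (h1.mul (by fun_prop)).mul (by fun_prop)

theorem contDiff_bU : ContDiff ℝ ∞ bU := by
  unfold bU; fun_prop

theorem contDiff_bR : ContDiff ℝ ∞ bR := by
  unfold bR; fun_prop

theorem contDiff_b3 : ContDiff ℝ ∞ b3 := by
  unfold b3
  have h1 : ContDiff ℝ ∞ (fun w : A => conj (mu0 w)) :=
    (conjCLE : ℂ ≃L[ℝ] ℂ).contDiff.comp contDiff_mu0
  fun_prop

theorem contDiff_b4 : ContDiff ℝ ∞ b4 := by
  unfold b4
  have h1 : ContDiff ℝ ∞ (fun w : A => (mu0 w).re) := reCLM.contDiff.comp contDiff_mu0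
  have h2 : ContDiff ℝ ∞ (fun w : A => (w.2.2.2 : ℂ)) := ofRealCLM.contDiff.comp (by fun_prop)
  fun_prop

/-- `y ↦ th y.1 y.2 (b y.1)` is smooth for smooth `b`. -/
theorem contDiff_th_field {b : A → A} (hb : ContDiff ℝ ∞ b) :
    ContDiff ℝ ∞ (fun y : E => th y.1 y.2 (b y.1)) := by
  have h0 : ContDiff ℝ ∞ (fun y : E => b y.1) := hb.comp contDiff_fst
  have h1 : ContDiff ℝ ∞ (fun y : E => ((y.1, y.2, b y.1) : A × ℍ[ℝ] × A)) := by
    fun_prop
  have h2 := contDiff_th.comp h1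
  have h3 : (fun y : E => th y.1 y.2 (b y.1)) = ((fun y : A × ℍ[ℝ] × A => th y.1 y.2.1 y.2.2) ∘
      fun y : E => ((y.1, y.2, b y.1) : A × ℍ[ℝ] × A)) := by
    funext y
    rfl
  rw [h3]
  exact h2

theorem hasDerivAt_line {F : Type*} [NormedAddCommGroup F] [NormedSpace ℝ F] {f : E → F}
    {x ξ : E} (hf : DifferentiableAt ℝ f x) (h : fderiv ℝ f x ξ = 0) :
    HasDerivAt (fun t : ℝ => f (x + t • ξ)) 0 0 := by
  have h1 : HasDerivAt (fun t : ℝ => x + t • ξ) ξ 0 := by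
    have := ((hasDerivAt_id (0 : ℝ)).smul_const ξ).const_add x
    simpa using this
  have h0 : x + (0 : ℝ) • ξ = x := by simp
  have h2 : HasFDerivAt f (fderiv ℝ f x) (x + (0 : ℝ) • ξ) := by
    rw [h0]; exact hf.hasFDerivAt
  have h3 := h2.comp_hasDerivAt 0 h1
  rw [h] at h3
  exact h3

/-- The zeros of the limit system are nondegenerate (`fderiv` form). -/
theorem zset_nondeg' {x : E} (hx : x ∈ zset) {ξ : E} (hξ : fderiv ℝ G x ξ = 0)
    (h0 : fderiv ℝ (fun y : E => cm y.1 y.2) x ξ = 0)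
    (hth : ∀ b : A → A, ContDiff ℝ ∞ b → (∀ w v, fderiv ℝ G (w, v) (b w, 0) = 0) →
      fderiv ℝ (fun y : E => th y.1 y.2 (b y.1)) x ξ = 0) : ξ = 0 := by
  have key : ∀ b : A → A, ContDiff ℝ ∞ b → (∀ w v, fderiv ℝ G (w, v) (b w, 0) = 0) →
      HasDerivAt (fun t : ℝ => th (x + t • ξ).1 (x + t • ξ).2 (b (x + t • ξ).1)) 0 0 := by
    intro b hb hb'
    exact hasDerivAt_line ((contDiff_th_field hb).differentiable (by simp) x) (hth b hb hb')
  exact zset_nondeg hx hξ (hasDerivAt_line (contDiff_cm.differentiable (by simp) x) h0)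
    (key bU contDiff_bU tangent_bU) (key bR contDiff_bR tangent_bR)
    (key b3 contDiff_b3 tangent_b3) (key b4 contDiff_b4 tangent_b4)

end Vale.Agent.P265.Dis
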